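import Crest.Agent.Edit.Close

/-!
Monotone matchings between block strings.
-/

set_option autoImplicit false
set_option linter.unusedVariables false

namespace Crest.Agent.Edit

open Finset

def word (n : ℕ) (x : ℕ → ℕ) : List ℕ := (List.range n).map x

theorem word_length (n : ℕ) (x : ℕ → ℕ) : (word n x).length = n := by simp [word]

theorem word_mul (B n : ℕ) (x : ℕ → ℕ) :
    word (B * n) x = (List.range B).flatMap fun β => word n fun r => x (β * n + r) := by
  induction B with
  | zero => simp [word]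
  | succ B ih =>
    rw [List.range_succ, List.flatMap_append, ← ih, Nat.succ_mul]
    simp [word, List.range_add, Function.comp_def]

theorem close_shift (n d : ℕ) (x : ℕ → ℕ) : Close d (word n x) (word n fun a => x (a + d)) := by
  by_cases h : d ≤ n
  · obtain ⟨m, rfl⟩ := Nat.exists_eq_add_of_le h
    refine ⟨word m fun a => x (a + d), ?_, ?_, by simp [word_length]; omega,
      by simp [word_length]; omega⟩
    · have : word (d + m) x = word d x ++ word m fun a => x (a + d) := by
        simp [word, List.range_add, Function.comp_def, add_comm]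
      rw [this]
      exact List.sublist_append_right _ _
    · exact (List.range_sublist.2 (by omega)).map _
  · exact close_short (by rw [word_length]; omega) (by rw [word_length]; omega)

def Mt (n : ℕ) (x y : ℕ → ℕ) (M : Finset (ℕ × ℕ)) : Prop :=
  (∀ q ∈ M, q.1 < n ∧ q.2 < n ∧ x q.1 = y q.2) ∧ ∀ q ∈ M, ∀ q' ∈ M, (q.1 < q'.1 ↔ q.2 < q'.2)

theorem mt_of_close {e n : ℕ} {x y : ℕ → ℕ} (h : Close e (word n x) (word n y)) :
    ∃ M, Mt n x y M ∧ n ≤ M.card + e := by
  obtain ⟨c, h1, h2, h3, -⟩ := h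
  obtain ⟨f, hf⟩ := List.sublist_iff_exists_fin_orderEmbedding_get_eq.1 h1
  obtain ⟨g, hg⟩ := List.sublist_iff_exists_fin_orderEmbedding_get_eq.1 h2
  refine ⟨univ.image fun i => ((f i).1, (g i).1), ⟨?_, ?_⟩, ?_⟩
  · intro q hq
    obtain ⟨i, -, rfl⟩ := mem_image.1 hq
    have a1 := (f i).2
    have a2 := (g i).2
    have a3 := (hf i).symm.trans (hg i)
    simp only [word_length] at a1 a2
    exact ⟨a1, a2, by simpa [word] using a3⟩
  · intro q hq q' hq'
    obtain ⟨i, -, rfl⟩ := mem_image.1 hq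
    obtain ⟨j, -, rfl⟩ := mem_image.1 hq'
    simp only [← Fin.lt_def, f.lt_iff_lt, g.lt_iff_lt]
  · rw [card_image_of_injective _ fun i j h => f.injective (Fin.ext (Prod.mk.inj h).1)]
    simpa [word_length] using h3

theorem Mt.symm {n : ℕ} {x y : ℕ → ℕ} {M : Finset (ℕ × ℕ)} (h : Mt n x y M) :
    Mt n y x (M.image Prod.swap) := by
  refine ⟨fun q hq => ?_, fun q hq q' hq' => ?_⟩
  · obtain ⟨r, hr, rfl⟩ := mem_image.1 hq
    exact ⟨(h.1 r hr).2.1, (h.1 r hr).1, (h.1 r hr).2.2.symm⟩
  · obtain ⟨r, hr, rfl⟩ := mem_image.1 hq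
    obtain ⟨r', hr', rfl⟩ := mem_image.1 hq'
    exact (h.2 r hr r' hr').symm

theorem Mt.inj {n : ℕ} {x y : ℕ → ℕ} {M : Finset (ℕ × ℕ)} (h : Mt n x y M) {q q' : ℕ × ℕ}
    (hq : q ∈ M) (hq' : q' ∈ M) (h1 : q.1 = q'.1) : q = q' := by
  have a := h.2 q hq q' hq'
  have b := h.2 q' hq' q hq
  exact Prod.ext h1 (by omega)

theorem Mt.fiber_le {L n : ℕ} (hn : 0 < n) {x y : ℕ → ℕ} {M : Finset (ℕ × ℕ)} (h : Mt L x y M)
    (β : ℕ) : (M.filter fun q => q.1 / n = β).card ≤ n := by
  conv_rhs => rw [← card_range n]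
  refine card_le_card_of_injOn (fun q => q.1 % n) (fun q _ => by simpa using Nat.mod_lt _ hn) ?_
  intro q hq q' hq' h1
  simp only [coe_filter, Set.mem_ofPred_eq] at hq hq' h1
  refine h.inj hq.1 hq'.1 ?_
  rw [← Nat.div_add_mod q.1 n, ← Nat.div_add_mod q'.1 n, hq.2, hq'.2, h1]

theorem Mt.card_eq {B n : ℕ} (hn : 0 < n) {x y : ℕ → ℕ} {M : Finset (ℕ × ℕ)}
    (h : Mt (B * n) x y M) : M.card = ∑ β ∈ range B, (M.filter fun q => q.1 / n = β).card :=
  card_eq_sum_card_fiberwise fun q hq => by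
    simpa using (Nat.div_lt_iff_lt_mul hn).2 (h.1 q hq).1

theorem Mt.card_le_of_empty {B n : ℕ} (hn : 0 < n) {x y : ℕ → ℕ} {M : Finset (ℕ × ℕ)}
    (h : Mt (B * n) x y M) (E : Finset ℕ) (hE : E ⊆ range B) (hE' : ∀ q ∈ M, q.1 / n ∉ E) :
    M.card + E.card * n ≤ B * n := by
  have h1 : E.card * n = ∑ β ∈ range B, if β ∈ E then n else 0 := by
    rw [← sum_filter, filter_mem_eq_inter, inter_eq_right.2 hE]; simp
  rw [h.card_eq hn, h1, ← sum_add_distrib]
  refine (sum_le_card_nsmul _ _ n fun β _ => ?_).trans (by simp)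
  split_ifs with hβ
  · rw [filter_eq_empty_iff.2 fun q hq (h : q.1 / n = β) => hE' q hq (h ▸ hβ)]; simp
  · exact h.fiber_le hn β

theorem block_lemma {n N k r F : ℕ} (hn : 0 < n) (hk : 2 ≤ k) (hF : 1 ≤ F) (hr : 4 * r ≤ k)
    (X Y : ℕ → ℕ → ℕ) (Good : ℕ → ℕ → Prop)
    (hbad : ∀ β β', β % k = β' % k → ¬ Good β β' → ∀ M, Mt n (X β) (Y β') M →
      n + F * M.card ≤ F * n)
    (hgood : ∀ s s', s < N → s' < N → ∀ C : Finset ℕ,
      (∀ c ∈ C, c < k ∧ Good (s * k + c) (s' * k + c)) → C.card ≤ r)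
    (M : Finset (ℕ × ℕ))
    (hM : Mt (N * k * n) (fun a => X (a / n) (a % n) * k + a / n % k)
      (fun a => Y (a / n) (a % n) * k + a / n % k) M) :
    N * k * n + 4 * F * M.card ≤ 4 * F * (N * k * n) := by
  classical
  have hk0 : 0 < k := by omega
  let T : ℕ → ℕ → Prop := fun β β' => ∃ q ∈ M, q.1 / n = β ∧ q.2 / n = β'
  have hlt : ∀ β β', T β β' → β < N * k ∧ β' < N * k := by
    rintro _ _ ⟨q, hq, rfl, rfl⟩
    exact ⟨(Nat.div_lt_iff_lt_mul hn).2 (hM.1 q hq).1, (Nat.div_lt_iff_lt_mul hn).2 (hM.1 q hq).2.1⟩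
  have htype : ∀ β β', T β β' → β % k = β' % k := by
    rintro _ _ ⟨q, hq, rfl, rfl⟩
    have := congrArg (· % k) (hM.1 q hq).2.2
    simpa using this
  have hmono : ∀ β β' γ γ', T β β' → T γ γ' → β < γ → β' ≤ γ' := by
    rintro _ _ _ _ ⟨q, hq, rfl, rfl⟩ ⟨q', hq', rfl, rfl⟩ h
    exact Nat.div_le_div_right ((hM.2 q hq q' hq').1 (Nat.lt_of_div_lt_div h)).le
  have hsucc : ∀ a b, a % k = b % k → b ≠ a + 1 := by
    rintro a _ h rfl
    have : k ∣ a + 1 - a := (Nat.modEq_iff_dvd' (by omega)).1 h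
    have := Nat.le_of_dvd (by omega) this
    omega
  let S := (range (N * k)).filter fun β => ∃ p : ℕ × ℕ, p.1 < p.2 ∧ T β p.1 ∧ T β p.2
  let G := (range (N * k)).filter fun β => ∃ β', T β β' ∧ Good β β'
  have hS : M.card + S.card * n ≤ N * k * n := by
    have hc : ∀ β : S, ∃ p : ℕ × ℕ, p.1 < p.2 ∧ T β p.1 ∧ T β p.2 := fun β => (mem_filter.1 β.2).2
    choose p hp using hc
    have hinj : Function.Injective fun β : S => (p β).1 + 1 := by
      intro β γ h
      simp only [Nat.add_right_cancel_iff] at h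
      have a := hmono _ _ _ _ (hp β).2.2 (hp γ).2.1
      have b := hmono _ _ _ _ (hp γ).2.2 (hp β).2.1
      have := (hp β).1
      have := (hp γ).1
      exact Subtype.ext (by omega)
    have := hM.symm.card_le_of_empty hn (univ.image fun β : S => (p β).1 + 1) ?_ ?_
    · rwa [card_image_of_injective _ Prod.swap_injective, card_image_of_injective _ hinj,
        card_univ, Fintype.card_coe] at this
    · intro a ha
      obtain ⟨β, -, rfl⟩ := mem_image.1 ha
      have := (hlt _ _ (hp β).2.2).2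
      have := (hp β).1
      simp; omega
    · intro q0 hq0 ha
      obtain ⟨q, hq, rfl⟩ := mem_image.1 hq0
      obtain ⟨β, -, hβ⟩ := mem_image.1 ha
      have h1 : T (q.1 / n) ((p β).1 + 1) := ⟨q, hq, rfl, hβ.symm⟩
      have a := hmono _ _ _ _ h1 (hp β).2.1
      have b := hmono _ _ _ _ (hp β).2.2 h1
      have c := hsucc (p β).1 (p β).2 ((htype _ _ (hp β).2.1).symm.trans (htype _ _ (hp β).2.2))
      have d := (hp β).1
      have e : q.1 / n ≠ β := fun h =>
        hsucc (p β).1 _ ((htype _ _ (hp β).2.1).symm.trans (h ▸ htype _ _ h1)) rfl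
      omega
  have hG : G.card ≤ 2 * N * r := by
    have hc : ∀ β : G, ∃ β', T β β' ∧ Good β β' := fun β => (mem_filter.1 β.2).2
    choose ψ hψ using hc
    have h1 : (univ : Finset G).card ≤ r * (range (2 * N)).card := by
      refine card_le_mul_card_image_of_maps_to (f := fun β : G => β.1 / k + ψ β / k) ?_ _ ?_
      · intro β _
        have a := (Nat.div_lt_iff_lt_mul hk0).2 (hlt _ _ (hψ β).1).1
        have b := (Nat.div_lt_iff_lt_mul hk0).2 (hlt _ _ (hψ β).1).2
        simp; omega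
      · intro σ _
        rcases (univ.filter fun β : G => β.1 / k + ψ β / k = σ).eq_empty_or_nonempty with h | ⟨β0, h0⟩
        · rw [h]; simp
        have hsame : ∀ β : G, β.1 / k + ψ β / k = σ → β.1 / k = β0.1 / k ∧ ψ β / k = ψ β0 / k := by
          intro β hβ
          have h0' := (mem_filter.1 h0).2
          rcases lt_trichotomy β.1 β0.1 with h | h | h
          · have := Nat.div_le_div_right (c := k) h.le
            have := Nat.div_le_div_right (c := k) (hmono _ _ _ _ (hψ β).1 (hψ β0).1 h)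
            omega
          · obtain rfl := Subtype.ext h; simp
          · have := Nat.div_le_div_right (c := k) h.le
            have := Nat.div_le_div_right (c := k) (hmono _ _ _ _ (hψ β0).1 (hψ β).1 h)
            omega
        have := hgood (β0.1 / k) (ψ β0 / k) ((Nat.div_lt_iff_lt_mul hk0).2 (hlt _ _ (hψ β0).1).1)
          ((Nat.div_lt_iff_lt_mul hk0).2 (hlt _ _ (hψ β0).1).2)
          ((univ.filter fun β : G => β.1 / k + ψ β / k = σ).image fun β => β.1 % k) ?_
        · rwa [card_image_of_injOn] at this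
          intro β hβ γ hγ h
          have a := (hsame β (by simpa using hβ)).1
          have b := (hsame γ (by simpa using hγ)).1
          refine Subtype.ext ?_
          simp only at h
          rw [← Nat.div_add_mod β.1 k, ← Nat.div_add_mod γ.1 k, a, b, h]
        · intro c hc
          obtain ⟨β, hβ, rfl⟩ := mem_image.1 hc
          have a := hsame β (by simpa using hβ)
          refine ⟨Nat.mod_lt _ hk0, ?_⟩
          rw [← a.1, ← a.2, Nat.div_add_mod', htype _ _ (hψ β).1, Nat.div_add_mod']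
          exact (hψ β).2
    simpa [mul_comm] using h1
  have hmain : F * M.card + N * k * n ≤ F * (N * k * n) + (S.card + G.card) * n := by
    have h1 : (S.card + G.card) * n = ∑ β ∈ range (N * k),
        ((if β ∈ S then n else 0) + if β ∈ G then n else 0) := by
      rw [sum_add_distrib, ← sum_filter, ← sum_filter, filter_mem_eq_inter, filter_mem_eq_inter,
        inter_eq_right.2 (filter_subset _ _), inter_eq_right.2 (filter_subset _ _)]
      simp only [add_mul, sum_const, smul_eq_mul]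
      rfl
    have h2 : N * k * n = ∑ β ∈ range (N * k), n := by simp
    rw [hM.card_eq hn, h1, mul_sum]
    conv_lhs => rw [h2]
    conv_rhs => rw [h2]
    rw [mul_sum, ← sum_add_distrib, ← sum_add_distrib]
    refine sum_le_sum fun β hβ => ?_
    have h3 := Nat.mul_le_mul_left F (hM.fiber_le hn β)
    by_cases hs : β ∈ S
    · rw [if_pos hs]; omega
    by_cases hg : β ∈ G
    · rw [if_pos hg]; omega
    rw [if_neg hs, if_neg hg]
    rcases (M.filter fun q => q.1 / n = β).eq_empty_or_nonempty with h | ⟨q0, h0⟩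
    · rw [h]; simpa using Nat.le_mul_of_pos_left n hF
    have t0 : T β (q0.2 / n) := ⟨q0, (mem_filter.1 h0).1, (mem_filter.1 h0).2, rfl⟩
    have hall : ∀ q ∈ M, q.1 / n = β → q.2 / n = q0.2 / n := by
      intro q hq h
      have t1 : T β (q.2 / n) := ⟨q, hq, h, rfl⟩
      by_contra hne
      rcases lt_or_gt_of_ne hne with h | h
      · exact hs (mem_filter.2 ⟨hβ, (_, _), h, t1, t0⟩)
      · exact hs (mem_filter.2 ⟨hβ, (_, _), h, t0, t1⟩)
    have := hbad β (q0.2 / n) (htype _ _ t0) (fun h => hg (mem_filter.2 ⟨hβ, _, t0, h⟩))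
      ((M.filter fun q => q.1 / n = β).image fun q => (q.1 % n, q.2 % n)) ⟨?_, ?_⟩
    · rw [card_image_of_injOn] at this
      · omega
      · intro q hq q' hq' h
        simp only [coe_filter, Set.mem_ofPred_eq, Prod.mk.injEq] at hq hq' h
        refine hM.inj hq.1 hq'.1 ?_
        rw [← Nat.div_add_mod q.1 n, ← Nat.div_add_mod q'.1 n, hq.2, hq'.2, h.1]
    · intro q1 hq1
      obtain ⟨q, hq, rfl⟩ := mem_image.1 hq1
      obtain ⟨hq, hq1⟩ := mem_filter.1 hq
      refine ⟨Nat.mod_lt _ hn, Nat.mod_lt _ hn, ?_⟩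
      have h4 := (hM.1 q hq).2.2
      simp only [hq1, hall q hq hq1, htype _ _ t0, Nat.add_right_cancel_iff] at h4
      exact Nat.eq_of_mul_eq_mul_right hk0 h4
    · intro q1 hq1 q2 hq2
      obtain ⟨q, hq, rfl⟩ := mem_image.1 hq1
      obtain ⟨q', hq', rfl⟩ := mem_image.1 hq2
      obtain ⟨hq, hq1⟩ := mem_filter.1 hq
      obtain ⟨hq', hq1'⟩ := mem_filter.1 hq'
      have a := hM.2 q hq q' hq'
      have b1 := Nat.div_add_mod q.1 n
      have b2 := Nat.div_add_mod q'.1 n
      have b3 := Nat.div_add_mod q.2 n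
      have b4 := Nat.div_add_mod q'.2 n
      rw [hq1] at b1
      rw [hq1'] at b2
      rw [hall q hq hq1] at b3
      rw [hall q' hq' hq1'] at b4
      simp only
      omega
  have h5 : 2 * (G.card * n) ≤ N * k * n := by
    calc 2 * (G.card * n) ≤ 2 * (2 * N * r * n) := by gcongr
      _ = N * (4 * r) * n := by ring
      _ ≤ _ := by gcongr
  obtain ⟨U, hU⟩ := Nat.exists_eq_add_of_le (le_trans (Nat.le_add_right _ _) hS)
  have h6 : U ≤ F * U := Nat.le_mul_of_pos_left U hF
  rw [add_mul] at hmain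
  generalize N * k * n = L at *
  subst hU
  simp only [mul_add, mul_assoc] at hmain ⊢
  omega

end Crest.Agent.Edit
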