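import Mathlib
import Crest.Prelude.Def_EditDistance

/-!
Common sublists, edit distance, and a self-synchronizing binary code.
-/

set_option autoImplicit false
set_option linter.unusedVariables false

namespace Crest.Agent.Edit

open List Crest.GeometryTopology.EditDistance

variable {α β : Type*}

def Close (e : ℕ) (a b : List α) : Prop :=
  ∃ c : List α, c <+ a ∧ c <+ b ∧ a.length ≤ c.length + e ∧ b.length ≤ c.length + e

theorem Close.rfl (a : List α) : Close 0 a a := ⟨a, Sublist.refl _, Sublist.refl _, le_rfl, le_rfl⟩

theorem Close.symm {e : ℕ} {a b : List α} (h : Close e a b) : Close e b a :=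
  let ⟨c, h1, h2, h3, h4⟩ := h; ⟨c, h2, h1, h4, h3⟩

theorem Close.mono {e e' : ℕ} {a b : List α} (h : Close e a b) (he : e ≤ e') : Close e' a b :=
  let ⟨c, h1, h2, h3, h4⟩ := h; ⟨c, h1, h2, by omega, by omega⟩

theorem common_sub {b c d : List α} (h1 : c <+ b) (h2 : d <+ b) :
    ∃ e : List α, e <+ c ∧ e <+ d ∧ c.length + d.length ≤ e.length + b.length := by
  induction h1 generalizing d with
  | slnil => exact ⟨[], Sublist.refl _, nil_sublist _, by simpa using h2⟩
  | cons a h ih =>
    cases h2 with
    | cons _ h2 =>
      obtain ⟨e, h3, h4, h5⟩ := ih h2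
      exact ⟨e, h3, h4, by simp; omega⟩
    | cons_cons _ h2 =>
      obtain ⟨e, h3, h4, h5⟩ := ih h2
      exact ⟨e, h3, h4.cons _, by simp; omega⟩
  | cons_cons a h ih =>
    cases h2 with
    | cons _ h2 =>
      obtain ⟨e, h3, h4, h5⟩ := ih h2
      exact ⟨e, h3.cons _, h4, by simp; omega⟩
    | cons_cons _ h2 =>
      obtain ⟨e, h3, h4, h5⟩ := ih h2
      exact ⟨a :: e, h3.cons_cons _, h4.cons_cons _, by simp; omega⟩

theorem Close.trans {e e' : ℕ} {a b c : List α} (h : Close e a b) (h' : Close e' b c) :
    Close (e + e') a c := by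
  obtain ⟨u, h1, h2, h3, h4⟩ := h
  obtain ⟨v, h5, h6, h7, h8⟩ := h'
  obtain ⟨w, h9, h10, h11⟩ := common_sub h2 h5
  exact ⟨w, h9.trans h1, h10.trans h6, by omega, by omega⟩

theorem Close.append {e e' : ℕ} {a b a' b' : List α} (h : Close e a b) (h' : Close e' a' b') :
    Close (e + e') (a ++ a') (b ++ b') := by
  obtain ⟨u, h1, h2, h3, h4⟩ := h
  obtain ⟨v, h5, h6, h7, h8⟩ := h'
  exact ⟨u ++ v, h1.append h5, h2.append h6, by simp; omega, by simp; omega⟩

theorem Close.map {e : ℕ} {a b : List α} (h : Close e a b) (f : α → β) :
    Close e (a.map f) (b.map f) := by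
  obtain ⟨u, h1, h2, h3, h4⟩ := h
  exact ⟨u.map f, h1.map f, h2.map f, by simpa, by simpa⟩

theorem close_short {a b : List α} {e : ℕ} (ha : a.length ≤ e) (hb : b.length ≤ e) : Close e a b :=
  ⟨[], nil_sublist _, nil_sublist _, by simpa, by simpa⟩

theorem close_flatMap (n : ℕ) (X Y : ℕ → List α) (e : ℕ → ℕ)
    (h : ∀ i < n, Close (e i) (X i) (Y i)) :
    Close (∑ i ∈ Finset.range n, e i) ((range n).flatMap X) ((range n).flatMap Y) := by
  induction n with
  | zero => exact Close.rfl _
  | succ n ih =>
    rw [range_succ, flatMap_append, flatMap_append, Finset.sum_range_succ]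
    refine (ih fun i hi => h i (by omega)).append ?_
    simpa using h n (by omega)

/-! edit distance -/

theorem walk_of_sublist {c a : List α} (h : c <+ a) (l : List α) :
    ∃ p : (editGraph α).Walk (l ++ c) (l ++ a), p.length + c.length = a.length := by
  induction h generalizing l with
  | slnil => exact ⟨SimpleGraph.Walk.nil, rfl⟩
  | @cons c a x h ih =>
    obtain ⟨p, hp⟩ := ih l
    have hadj : (editGraph α).Adj (l ++ a) (l ++ x :: a) := by
      rw [editGraph, SimpleGraph.fromRel_adj]
      refine ⟨fun h => ?_, Or.inl (Or.inl ⟨l, a, x, rfl, rfl⟩)⟩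
      have := congrArg List.length h
      simp at this
    exact ⟨p.concat hadj, by simp; omega⟩
  | @cons_cons c a x h ih =>
    obtain ⟨p, hp⟩ := ih (l ++ [x])
    exact ⟨p.copy (by simp) (by simp), by simp; omega⟩

theorem walk_of_close {e : ℕ} {a b : List α} (h : Close e a b) :
    ∃ p : (editGraph α).Walk a b, p.length ≤ 2 * e := by
  obtain ⟨c, h1, h2, h3, h4⟩ := h
  obtain ⟨p, hp⟩ := walk_of_sublist h1 []
  obtain ⟨q, hq⟩ := walk_of_sublist h2 []
  refine ⟨(p.reverse.append q).copy (by simp) (by simp), ?_⟩
  simp; omega

theorem editDist_le {e : ℕ} {a b : List α} (h : Close e a b) : editDist a b ≤ 2 * e := by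
  obtain ⟨p, hp⟩ := walk_of_close h
  exact (SimpleGraph.dist_le p).trans hp

theorem close_of_lip {F : List α → List β} {C : ℕ}
    (h : ∀ u v, (editGraph α).Adj u v → Close C (F u) (F v)) (a b : List α) :
    Close (editDist a b * C) (F a) (F b) := by
  obtain ⟨p, -⟩ := walk_of_close (close_short (le_max_left a.length b.length) (le_max_right _ _))
  obtain ⟨q, hq⟩ := (SimpleGraph.Walk.reachable p).exists_walk_length_eq_dist
  rw [editDist, ← hq]
  clear hq p
  induction q with
  | nil => simpa using Close.rfl _
  | cons hadj q ih =>
    refine ((h _ _ hadj).trans ih).mono (le_of_eq ?_)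
    simp; ring

/-! local parsing -/

def parse (d : List α → Option β) : List α → List β
  | [] => []
  | b :: w => (d (b :: w)).toList ++ parse d w

theorem toList_length (o : Option β) : o.toList.length ≤ 1 := by cases o <;> simp

theorem parse_append {d : List α → Option β} {L : ℕ} (hd : ∀ u v, u.take L = v.take L → d u = d v)
    {e : ℕ} {r r' : List α} (h : Close e (parse d r) (parse d r')) (l : List α) :
    Close (e + min l.length L) (parse d (l ++ r)) (parse d (l ++ r')) := by
  induction l with
  | nil => simpa using h
  | cons b l ih =>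
    simp only [cons_append, parse]
    by_cases hl : L ≤ l.length + 1
    · rw [hd (b :: (l ++ r)) (b :: (l ++ r'))]
      · refine ((Close.rfl _).append ih).mono ?_
        simp
      · rw [← cons_append, ← cons_append, take_append_of_le_length (by simpa),
          take_append_of_le_length (by simpa)]
    · refine ((close_short (toList_length _) (toList_length _)).append ih).mono ?_
      simp; omega

theorem parse_adj {d : List α → Option β} {L : ℕ} (hd : ∀ u v, u.take L = v.take L → d u = d v)
    (u v : List α) (h : (editGraph α).Adj u v) : Close (L + 1) (parse d u) (parse d v) := by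
  have key : ∀ u v : List α, IsInsertion u v ∨ IsSubstitution u v →
      Close (L + 1) (parse d u) (parse d v) := by
    rintro u v (⟨l, r, a, rfl, rfl⟩ | ⟨l, r, a, b, -, rfl, rfl⟩)
    · refine (parse_append (e := 1) hd ?_ l).mono (by omega)
      exact (close_short (a := []) (by simp) (toList_length _)).append (Close.rfl _)
    · refine (parse_append (e := 1) hd ?_ l).mono (by omega)
      exact (close_short (toList_length _) (toList_length _)).append (Close.rfl _)
  rw [editGraph, SimpleGraph.fromRel_adj] at h
  rcases h.2 with h | h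
  · exact key _ _ h
  · exact (key _ _ h).symm

/-! the code -/

def body (bs : List Bool) : List Bool := bs.flatMap fun b => [false, b]

def code (μ a : ℕ) : List Bool := true :: true :: false :: false :: body ((range μ).map a.testBit)

def enc (μ : ℕ) (x : List ℕ) : List Bool := x.flatMap (code μ)

theorem body_length (bs : List Bool) : (body bs).length = 2 * bs.length := by
  induction bs with
  | nil => rfl
  | cons b bs ih => simp [body] at ih ⊢; omega

theorem code_length (μ a : ℕ) : (code μ a).length = 2 * μ + 4 := by simp [code, body_length]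

theorem enc_length (μ : ℕ) (x : List ℕ) : (enc μ x).length = (2 * μ + 4) * x.length := by
  induction x with
  | nil => rfl
  | cons a x ih => simp only [enc, flatMap_cons, length_append, code_length, length_cons] at ih ⊢
                   rw [ih]; ring

theorem body_inj {a b : List Bool} (h : body a = body b) : a = b := by
  induction a generalizing b with
  | nil => cases b with
    | nil => rfl
    | cons _ _ => simp [body] at h
  | cons x a ih => cases b with
    | nil => simp [body] at h
    | cons y b =>
      simp only [body, flatMap_cons, cons_append, nil_append, cons.injEq, true_and] at h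
      rw [h.1, ih h.2]

theorem code_inj {μ a b : ℕ} (ha : a < 2 ^ μ) (hb : b < 2 ^ μ) (h : code μ a = code μ b) : a = b := by
  simp only [code, cons.injEq, true_and] at h
  have h1 := body_inj h
  refine Nat.eq_of_testBit_eq fun i => ?_
  by_cases hi : i < μ
  · exact map_inj_left.1 h1 i (mem_range.2 hi)
  · have : 2 ^ μ ≤ 2 ^ i := Nat.pow_le_pow_right (by norm_num) (by omega)
    rw [Nat.testBit_lt_two_pow (by omega), Nat.testBit_lt_two_pow (by omega)]

open Classical in
noncomputable def dec (μ : ℕ) (w : List Bool) : Option ℕ :=
  if h : ∃ a, a < 2 ^ μ ∧ code μ a = w.take (2 * μ + 4) then some h.choose else none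

theorem dec_none {μ : ℕ} {w : List Bool} (h : ∀ r, w ≠ true :: true :: false :: r) :
    dec μ w = none := by
  rw [dec, dif_neg]
  rintro ⟨a, -, ha⟩
  have := take_append_drop (2 * μ + 4) w
  rw [← ha] at this
  exact h _ this.symm

theorem parse_body (μ : ℕ) (bs : List Bool) (r : List Bool)
    (hr : ∀ r', r ≠ true :: false :: r') : parse (dec μ) (body bs ++ r) = parse (dec μ) r := by
  induction bs with
  | nil => rfl
  | cons b bs ih =>
    change parse (dec μ) (false :: b :: (body bs ++ r)) = _
    simp only [parse]
    rw [dec_none (by simp), dec_none, ih]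
    · simp
    · intro r' h
      cases bs with
      | nil => exact hr r' (by simpa [body] using (cons.inj h).2)
      | cons c bs => simp [body] at h

theorem parse_enc (μ : ℕ) (x : List ℕ) (hx : ∀ a ∈ x, a < 2 ^ μ) : parse (dec μ) (enc μ x) = x := by
  induction x with
  | nil => rfl
  | cons a x ih =>
    have ha := hx a (by simp)
    have h1 : dec μ (code μ a ++ enc μ x) = some a := by
      have h2 : ∃ b, b < 2 ^ μ ∧ code μ b = (code μ a ++ enc μ x).take (2 * μ + 4) :=
        ⟨a, ha, by rw [take_left' (code_length μ a)]⟩
      rw [dec, dif_pos h2]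
      have := h2.choose_spec
      congr 1
      exact code_inj this.1 ha (this.2.trans (take_left' (code_length μ a)))
    change parse (dec μ) (true :: true :: false :: false ::
      (body ((range μ).map a.testBit) ++ enc μ x)) = _
    simp only [parse]
    rw [show dec μ (true :: true :: false :: false :: (body ((range μ).map a.testBit) ++ enc μ x))
      = some a from h1, dec_none (by simp), dec_none (by simp), dec_none (by simp), parse_body,
      ih fun b hb => hx b (by simp [hb])]
    · simp
    · intro r' h
      cases x with
      | nil => simp [enc] at h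
      | cons c x => simp [enc, code] at h

theorem close_of_enc (μ : ℕ) (x y : List ℕ) (hx : ∀ a ∈ x, a < 2 ^ μ) (hy : ∀ a ∈ y, a < 2 ^ μ) :
    Close (editDist (enc μ x) (enc μ y) * (2 * μ + 5)) x y := by
  have := close_of_lip (F := parse (dec μ)) (parse_adj (L := 2 * μ + 4)
    (fun u v h => by simp only [dec, h])) (enc μ x) (enc μ y)
  rwa [parse_enc μ x hx, parse_enc μ y hy] at this

theorem editDist_enc_le (μ : ℕ) {e : ℕ} {x y : List ℕ} (h : Close e x y) :
    editDist (enc μ x) (enc μ y) ≤ 2 * ((2 * μ + 4) * e) := by
  obtain ⟨c, h1, h2, h3, h4⟩ := h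
  refine editDist_le ⟨enc μ c, h1.flatMap _, h2.flatMap _, ?_, ?_⟩
  all_goals
    rw [enc_length, enc_length, ← mul_add]
    gcongr

end Crest.Agent.Edit
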