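import Crest.Agent.Edit.Obj

/-!
Distortion lower bound from the recursive family, and the choice of parameters.
-/

set_option autoImplicit false
set_option linter.unusedVariables false

namespace Crest.Agent.Edit

open Finset Crest.GeometryTopology.EditDistance

def Emb (n : ℕ) (f : List Bool → lp (fun _ : ℕ => ℝ) 1) (s D : ℝ) : Prop :=
  ∀ x y : List Bool, x.length = n → y.length = n → x ≠ y →
    s * (editDist x y : ℝ) ≤ ‖f x - f y‖ ∧ ‖f x - f y‖ ≤ D * s * (editDist x y : ℝ)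

theorem dist_lower {k N P m j Q : ℕ} (O : Obj k N P m j Q) (hQ : 1 < Q) (hn : 0 < N * k) (μ : ℕ)
    (hμ : (k * P) ^ j * Q ≤ 2 ^ μ) (f : List Bool → lp (fun _ : ℕ => ℝ) 1) (s D : ℝ) (hs : 0 < s)
    (h : Emb ((2 * μ + 4) * (N * k) ^ j) f s D) :
    0 ≤ D ∧ (m : ℝ) ^ j ≤ D * (4 ^ j * (8 * (2 * μ + 5) * (2 * μ + 4) * (j + 1))) := by
  set n := (N * k) ^ j with hn'
  have hn0 : 0 < n := by positivity
  let E : O.G → List Bool := fun g => enc μ (word n (O.str g))
  have hE : ∀ g, (E g).length = (2 * μ + 4) * n := fun g => by rw [enc_length, word_length]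
  have hw : ∀ g, ∀ a ∈ word n (O.str g), a < 2 ^ μ := fun g a ha => by
    obtain ⟨r, -, rfl⟩ := List.mem_map.1 ha
    exact (O.hstr g r).trans_le hμ
  have hfar : ∀ g, n ≤ 4 ^ j * (editDist (E (g + O.v)) (E g) * (2 * μ + 5)) := by
    intro g
    obtain ⟨M, hM, h1⟩ := mt_of_close (close_of_enc μ _ _ (hw (g + O.v)) (hw g)).symm
    have h2 := O.hfar g 1 (fun h => by
      have := Int.le_of_dvd one_pos h
      omega) M (by rwa [one_smul])
    have h3 := Nat.mul_le_mul_left (4 ^ j) h1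
    rw [mul_add] at h3
    have h4 := h2.trans h3
    simp only [E]
    omega
  have hpos : ∀ g, 0 < editDist (E (g + O.v)) (E g) := fun g => by
    have := hfar g
    by_contra h0
    rw [Nat.eq_zero_of_not_pos h0] at this
    omega
  have hne : ∀ g, E (g + O.v) ≠ E g := fun g h0 => by
    have := hpos g
    rw [h0, editDist, SimpleGraph.dist_self] at this
    omega
  have hD : 0 ≤ D := by
    have h1 := h _ _ (hE _) (hE _) (hne 0)
    have h2 : (0 : ℝ) < editDist (E (0 + O.v)) (E 0) := by exact_mod_cast hpos 0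
    by_contra hD
    have := mul_neg_of_neg_of_pos (mul_neg_of_neg_of_pos (not_le.1 hD) hs) h2
    linarith [norm_nonneg (f (E (0 + O.v)) - f (E 0))]
  refine ⟨hD, ?_⟩
  have hP := poincare_l1 O.v O.mv O.w ((m : ℝ) ^ j / 4) (fun χ => by
    by_cases hχ : χ O.v = 1
    · rw [hχ]
      simpa using sum_nonneg fun i _ => mul_nonneg (O.hw i) (re_nonneg _ _)
    · refine le_trans ?_ (O.hspec χ hχ)
      have h1 := (Complex.abs_re_le_norm (χ O.v)).trans (χ.norm_apply O.v).le
      have h2 : 2 - 2 * (χ O.v).re ≤ 4 := by linarith [(abs_le.1 h1).1]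
      calc _ ≤ (m : ℝ) ^ j / 4 * 4 := by gcongr
        _ = _ := by ring) fun g => f (E g)
  set C : ℝ := (Fintype.card O.G : ℝ)
  have hC : 0 < C := by simp only [C]; exact_mod_cast Fintype.card_pos
  have h1 : C * (s * n) ≤ 4 ^ j * (2 * μ + 5) * ∑ g, ‖f (E (g + O.v)) - f (E g)‖ := by
    rw [mul_sum]
    refine le_trans (by simp [C]) (card_nsmul_le_sum univ _ (s * n) fun g _ => ?_)
    have h2 : (n : ℝ) ≤ 4 ^ j * (editDist (E (g + O.v)) (E g) * (2 * μ + 5)) := by
      exact_mod_cast hfar g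
    calc s * n ≤ s * (4 ^ j * (editDist (E (g + O.v)) (E g) * (2 * μ + 5))) := by gcongr
      _ = 4 ^ j * (2 * μ + 5) * (s * editDist (E (g + O.v)) (E g)) := by ring
      _ ≤ _ := by gcongr; exact (h _ _ (hE _) (hE _) (hne g)).1
  have h2 : ∑ i, O.w i * ∑ g, ‖f (E (g + O.mv i)) - f (E g)‖ ≤
      C * (D * s * (2 * (2 * μ + 4))) * ((j + 1) * n) := by
    refine le_trans ?_ (mul_le_mul_of_nonneg_left O.hcost (by positivity))
    rw [mul_sum]
    refine sum_le_sum fun i _ => ?_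
    rw [mul_left_comm]
    refine mul_le_mul_of_nonneg_left ?_ (O.hw i)
    refine (sum_le_card_nsmul univ _ (D * s * (2 * (2 * μ + 4)) * O.cost i) fun g _ => ?_).trans
      (le_of_eq (by simp [C]; ring))
    by_cases h0 : E (g + O.mv i) = E g
    · rw [h0, sub_self, norm_zero]; positivity
    · refine (h _ _ (hE _) (hE _) h0).2.trans ?_
      have : (editDist (E (g + O.mv i)) (E g) : ℝ) ≤ 2 * ((2 * μ + 4) * O.cost i) := by
        exact_mod_cast editDist_enc_le μ (O.hclose g i).symm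
      calc _ ≤ D * s * (2 * ((2 * μ + 4) * O.cost i)) := by gcongr
        _ = _ := by ring
  have hn1 : (0 : ℝ) < n := by exact_mod_cast hn0
  refine le_of_mul_le_mul_right ?_ (by positivity : 0 < C * (s * n))
  calc (m : ℝ) ^ j * (C * (s * n))
      ≤ m ^ j * (4 ^ j * (2 * μ + 5) * ∑ g, ‖f (E (g + O.v)) - f (E g)‖) := by gcongr
    _ = 4 * 4 ^ j * (2 * μ + 5) * (m ^ j / 4 * ∑ g, ‖f (E (g + O.v)) - f (E g)‖) := by ring
    _ ≤ 4 * 4 ^ j * (2 * μ + 5) * (C * (D * s * (2 * (2 * μ + 4))) * ((j + 1) * n)) :=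
      mul_le_mul_of_nonneg_left (hP.trans h2) (by positivity)
    _ = _ := by ring

theorem nth_prime_le {K : ℕ} (hK : 7 ≤ K) : Nat.nth Nat.Prime (2 * K) ≤ K ^ 3 := by
  refine Nat.le_of_lt_succ (Nat.nth_lt_of_lt_count ?_)
  by_contra h
  have h1 := Chebyshev.two_pow_le_mul_lcmUpto (K ^ 3)
  have h2 : Nat.lcmUpto (K ^ 3) ≤ (K ^ 3) ^ (2 * K) := by
    rw [Nat.lcmUpto_eq_prod_pow_log]
    refine (prod_le_pow_card _ _ (K ^ 3) fun p _ => Nat.pow_log_le_self _ (by positivity)).trans ?_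
    refine Nat.pow_le_pow_right (by positivity) ?_
    rw [Nat.primesLE_card_eq_primeCounting]
    exact not_lt.1 h
  have h3 : K ^ 3 + 1 ≤ K ^ 4 := by
    have : 0 < K ^ 3 := by positivity
    rw [pow_succ K 3]; nlinarith
  have h4 : K ^ 4 * (K ^ 3) ^ (2 * K) ≤ 2 ^ (K * (4 + 6 * K)) := by
    rw [← pow_mul, ← pow_add, pow_mul 2, show 4 + 3 * (2 * K) = 4 + 6 * K by ring]
    exact Nat.pow_le_pow_left Nat.lt_two_pow_self.le _
  have h5 := (Nat.pow_le_pow_iff_right (by norm_num)).1 (h1.trans ((Nat.mul_le_mul h3 h2).trans h4))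
  have h6 : K * (7 * K) ≤ K * (K * K) := by gcongr
  nlinarith

theorem param (t : ℕ) (ht : 1 ≤ t) : ∃ n ≤ (81 * t ^ 2) ^ (25 * t ^ 2),
    ∀ (f : List Bool → lp (fun _ : ℕ => ℝ) 1) (s D : ℝ), 0 < s → Emb n f s D →
      0 ≤ D ∧ (t : ℝ) ^ t ≤ D * (21000000 * t ^ 7) := by
  obtain ⟨K, hK⟩ : ∃ K, K = 81 * t ^ 2 := ⟨_, rfl⟩
  rw [← hK]
  have ht2 : t ≤ t ^ 2 := Nat.le_self_pow (by norm_num) t
  have hK1 : 81 ≤ K := by omega
  let q : ℕ → ℕ := fun i => Nat.nth Nat.Prime (K + i)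
  have hinf := Nat.infinite_setOfPred_prime
  have hq : ∀ i < K, K ≤ q i ∧ q i ≤ K ^ 3 := fun i hi =>
    ⟨by have := Nat.add_two_le_nth_prime (K + i); simp only [q]; omega,
      ((Nat.nth_monotone hinf) (by omega)).trans (nth_prime_le (by omega))⟩
  have hqq : ∀ i < K, ∀ i' < K, i ≠ i' → (q i).Coprime (q i') := fun i _ i' _ h =>
    (Nat.coprime_primes (Nat.prime_nth_prime _) (Nat.prime_nth_prime _)).2 fun h' =>
      h (by simpa using Nat.nth_injective hinf h')
  have htk : t * (80 * t) < K := by nlinarith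
  have hQ := hq _ htk
  obtain ⟨W, hW⟩ : ∃ W, W = 2 * (K ^ 3) ^ (4 * t + t + 1) := ⟨_, rfl⟩
  have hW0 : 0 < W := by rw [hW]; positivity
  have hN : (4 * t) ^ t * W ≤ K ^ (20 * t + 1) := by
    calc (4 * t) ^ t * W ≤ K ^ t * (K * (K ^ 3) ^ (4 * t + t + 1)) := by
          rw [hW]; gcongr <;> omega
      _ = K ^ (16 * t + 4) := by ring
      _ ≤ _ := Nat.pow_le_pow_right (by omega) (by omega)
  obtain ⟨O⟩ := exists_obj (k := 80 * t) (N := (4 * t) ^ t * W) (P := K ^ 3) (m := 4 * t) (W := W)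
    (K := K) (r := 20 * t) (T := K) q (by omega) (by positivity) (by omega) (by omega) (by omega) hN
    hq hqq t (q (t * (80 * t))) (by omega) htk.le (fun i hi => hqq _ (by omega) _ htk hi.ne)
    (by rw [hW, pow_succ (K ^ 3)]; gcongr; exact hQ.2) (Nat.one_le_pow _ _ (by omega)) le_rfl
  refine ⟨(2 * (K * (7 * t)) + 4) * ((4 * t) ^ t * W * (80 * t)) ^ t, ?_, fun f s D hs h => ?_⟩
  · calc _ ≤ K ^ 3 * (K ^ (20 * t + 1) * K) ^ t := by
          gcongr
          · have : t ≤ K := by omega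
            have : K * t ≤ K * K := by gcongr
            have : 81 * (K * K) ≤ K * (K * K) := by gcongr
            nlinarith
          · omega
      _ = K ^ (3 + (20 * t + 2) * t) := by ring
      _ ≤ _ := Nat.pow_le_pow_right (by omega) (by nlinarith)
  · have hμ : (80 * t * K ^ 3) ^ t * q (t * (80 * t)) ≤ 2 ^ (K * (7 * t)) := by
      calc _ ≤ (K * K ^ 3) ^ t * K ^ 3 := by
            gcongr
            · omega
            · exact hQ.2
        _ = K ^ (4 * t + 3) := by ring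
        _ ≤ K ^ (7 * t) := Nat.pow_le_pow_right (by omega) (by omega)
        _ ≤ _ := by rw [pow_mul 2]; exact Nat.pow_le_pow_left Nat.lt_two_pow_self.le _
    obtain ⟨hD, h1⟩ := dist_lower O (by omega) (by positivity) _ hμ f s D hs h
    refine ⟨hD, ?_⟩
    have ht' : (1 : ℝ) ≤ t := by exact_mod_cast ht
    have h3 : (1 : ℝ) ≤ t ^ 3 := one_le_pow₀ ht'
    refine le_of_mul_le_mul_left ?_ (by positivity : (0 : ℝ) < 4 ^ t)
    subst hK
    push_cast at h1
    rw [mul_pow] at h1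
    refine h1.trans ?_
    rw [mul_left_comm]
    refine mul_le_mul_of_nonneg_left (mul_le_mul_of_nonneg_left ?_ hD) (by positivity)
    calc _ ≤ (8 : ℝ) * (1139 * t ^ 3) * (1139 * t ^ 3) * (2 * t) := by
          gcongr <;> nlinarith
      _ = 20757136 * t ^ 7 := by ring
      _ ≤ _ := by gcongr; norm_num

end Crest.Agent.Edit
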