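import Mathlib

/-!
Poincaré inequalities on finite abelian groups, and their `ℓ¹` form.
-/

set_option autoImplicit false
set_option linter.unusedVariables false

namespace Crest.Agent.Edit

open Finset

theorem corr_eq {G : Type} [AddCommGroup G] [Fintype G] (φ : G → ℝ) (a : G) :
    (Fintype.card G : ℝ) * ∑ g, (φ (g + a) - φ g) ^ 2 =
      ∑ χ : AddChar G ℂ, (2 - 2 * (χ a).re) * ‖∑ g, (φ g : ℂ) * χ g‖ ^ 2 := by
  classical
  have key : ∀ a : G, ((Fintype.card G : ℝ) * ∑ g, φ (g + a) * φ g) =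
      ∑ χ : AddChar G ℂ, (χ a).re * ‖∑ g, (φ g : ℂ) * χ g‖ ^ 2 := by
    intro a
    have h1 : ∀ χ : AddChar G ℂ, χ a * ((‖∑ g, (φ g : ℂ) * χ g‖ ^ 2 : ℝ) : ℂ) =
        ∑ g, ∑ h, (φ h : ℂ) * φ g * χ (a + g - h) := by
      intro χ
      rw [← Complex.normSq_eq_norm_sq, ← Complex.mul_conj, map_sum, sum_mul_sum, mul_sum]
      refine sum_congr rfl fun g _ => ?_
      rw [mul_sum]
      refine sum_congr rfl fun h _ => ?_
      rw [map_mul, Complex.conj_ofReal, ← AddChar.map_neg_eq_conj, sub_eq_add_neg,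
        AddChar.map_add_eq_mul, AddChar.map_add_eq_mul]
      ring
    have h2 : ∑ χ : AddChar G ℂ, χ a * ((‖∑ g, (φ g : ℂ) * χ g‖ ^ 2 : ℝ) : ℂ) =
        (((Fintype.card G : ℝ) * ∑ g, φ (g + a) * φ g : ℝ) : ℂ) := by
      simp only [h1]
      rw [sum_comm]
      push_cast
      rw [mul_sum]
      refine sum_congr rfl fun g _ => ?_
      rw [sum_comm]
      simp only [← mul_sum, AddChar.sum_apply_eq_ite, sub_eq_zero, mul_ite, mul_zero]
      rw [sum_ite_eq]
      simp [add_comm, mul_comm]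
    have h3 := congrArg Complex.re h2
    rw [Complex.ofReal_re, Complex.re_sum] at h3
    rw [← h3]
    exact sum_congr rfl fun χ _ => by rw [Complex.re_mul_ofReal]
  have h0 := key 0
  have ha := key a
  have hs : ∑ g, φ (g + a) * φ (g + a) = ∑ g, φ g * φ g :=
    Equiv.sum_comp (Equiv.addRight a) fun g => φ g * φ g
  have : ∑ g, (φ (g + a) - φ g) ^ 2 = 2 * ∑ g, φ g * φ g - 2 * ∑ g, φ (g + a) * φ g := by
    rw [two_mul, two_mul]
    nth_rewrite 1 [← hs]
    rw [← sum_add_distrib, ← sum_add_distrib, ← sum_sub_distrib]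
    exact sum_congr rfl fun g _ => by ring
  simp only [add_zero, AddChar.map_zero_eq_one, Complex.one_re, one_mul] at h0
  rw [this, mul_sub, mul_left_comm, mul_left_comm _ 2, h0, ha, mul_sum, mul_sum, ← sum_sub_distrib]
  exact sum_congr rfl fun χ _ => by ring

theorem poincare_sq {G ι : Type} [AddCommGroup G] [Fintype G] [Fintype ι] (v : G) (mv : ι → G)
    (w : ι → ℝ) (c : ℝ)
    (h : ∀ χ : AddChar G ℂ, c * (2 - 2 * (χ v).re) ≤ ∑ i, w i * (2 - 2 * (χ (mv i)).re))
    (φ : G → ℝ) : c * ∑ g, (φ (g + v) - φ g) ^ 2 ≤ ∑ i, w i * ∑ g, (φ (g + mv i) - φ g) ^ 2 := by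
  have hc : (0 : ℝ) < Fintype.card G := by exact_mod_cast Fintype.card_pos
  refine le_of_mul_le_mul_left ?_ hc
  rw [mul_left_comm, corr_eq, mul_sum univ _ (Fintype.card G : ℝ)]
  simp only [mul_left_comm (Fintype.card G : ℝ), corr_eq]
  simp only [mul_sum]
  rw [sum_comm]
  refine sum_le_sum fun χ _ => ?_
  simp only [← mul_assoc]
  rw [← sum_mul]
  exact mul_le_mul_of_nonneg_right (h χ) (by positivity)

theorem l1_of_cuts {G κ : Type} [Fintype G] [Fintype κ] (x y : κ → G) (a : κ → ℝ)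
    (h : ∀ φ : G → ℝ, 0 ≤ ∑ i, a i * (φ (x i) - φ (y i)) ^ 2) (φ : G → ℝ) :
    0 ≤ ∑ i, a i * |φ (x i) - φ (y i)| := by
  classical
  induction hn : (univ.image φ).card using Nat.strong_induction_on generalizing φ with
  | _ n ih =>
  by_cases h1 : (univ.image φ).card ≤ 1
  · refine le_of_eq (sum_eq_zero fun i _ => ?_).symm
    rw [card_le_one.1 h1 (φ (x i)) (by simp) (φ (y i)) (by simp)]
    simp
  have hne : (univ.image φ).Nonempty := card_pos.1 (by omega)
  set m := (univ.image φ).min' hne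
  have hm : m ∈ univ.image φ := min'_mem _ _
  have hne' : ((univ.image φ).erase m).Nonempty := card_pos.1 (by rw [card_erase_of_mem hm]; omega)
  set m' := ((univ.image φ).erase m).min' hne'
  have hm' : m' ∈ (univ.image φ).erase m := min'_mem _ _
  have hmm : m ≤ m' := min'_le _ _ (mem_of_mem_erase hm')
  have hge : ∀ g, φ g ≠ m → m' ≤ φ g := fun g hg => min'_le _ _ (by simp [hg])
  let ψ : G → ℝ := fun g => if φ g = m then m' else φ g
  let χ : G → ℝ := fun g => if φ g = m then 1 else 0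
  have hψ : 0 ≤ ∑ i, a i * |ψ (x i) - ψ (y i)| := by
    refine ih _ ?_ ψ rfl
    refine lt_of_le_of_lt (card_le_card (t := (univ.image φ).erase m) ?_) ?_
    · intro z hz
      obtain ⟨g, -, rfl⟩ := mem_image.1 hz
      simp only [ψ]
      split_ifs with hg
      · exact hm'
      · simp [hg]
    · rw [← hn]; exact card_erase_lt_of_mem hm
  have e : ∀ g g', |φ g - φ g'| = |ψ g - ψ g'| + (m' - m) * (χ g - χ g') ^ 2 := by
    intro g g'
    simp only [ψ, χ]
    split_ifs with hg hg' hg'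
    · simp [hg, hg']
    · have := hge g' hg'
      rw [hg, abs_of_nonpos (by linarith), abs_of_nonpos (by linarith)]; ring
    · have := hge g hg
      rw [hg', abs_of_nonneg (by linarith), abs_of_nonneg (by linarith)]; ring
    · simp
  simp only [e, mul_add, sum_add_distrib, mul_left_comm (a _) (m' - m), ← mul_sum]
  exact add_nonneg hψ (mul_nonneg (by linarith) (h χ))

theorem poincare_l1 {G ι : Type} [AddCommGroup G] [Fintype G] [Fintype ι] (v : G) (mv : ι → G)
    (w : ι → ℝ) (c : ℝ)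
    (h : ∀ χ : AddChar G ℂ, c * (2 - 2 * (χ v).re) ≤ ∑ i, w i * (2 - 2 * (χ (mv i)).re))
    (f : G → lp (fun _ : ℕ => ℝ) 1) :
    c * ∑ g, ‖f (g + v) - f g‖ ≤ ∑ i, w i * ∑ g, ‖f (g + mv i) - f g‖ := by
  let x : Option ι × G → G := fun z => z.2 + z.1.elim v mv
  let a : Option ι × G → ℝ := fun z => z.1.elim (-c) w
  have key : ∀ D : G → G → ℝ, ∑ z : Option ι × G, a z * D (x z) z.2 =
      ∑ i, w i * ∑ g, D (g + mv i) g - c * ∑ g, D (g + v) g := by
    intro D
    rw [Fintype.sum_prod_type, Fintype.sum_option]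
    simp only [a, x, Option.elim, mul_sum, neg_mul, sum_neg_distrib]
    ring
  have h1 := l1_of_cuts x Prod.snd a fun φ => by
    rw [key fun g g' => (φ g - φ g') ^ 2]
    exact sub_nonneg.2 (poincare_sq v mv w c h φ)
  have h2 : ∀ u : lp (fun _ : ℕ => ℝ) 1, HasSum (fun n => |u n|) ‖u‖ := fun u => by
    simpa using lp.hasSum_norm (p := 1) (by simp) u
  have h3 : HasSum (fun n => ∑ z : Option ι × G, a z * |f (x z) n - f z.2 n|)
      (∑ z : Option ι × G, a z * ‖f (x z) - f z.2‖) :=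
    hasSum_sum fun z _ => (h2 (f (x z) - f z.2)).mul_left _
  have h4 := h3.nonneg fun n => h1 fun g => f g n
  rw [key fun g g' => ‖f g - f g'‖] at h4
  linarith

theorem avg_root {ω : ℂ} {M W : ℕ} (hM : 0 < M) (h1 : ω ^ M = 1) (h2 : ω ≠ 1) (hW : 2 * M ≤ W) :
    (W : ℝ) ≤ ∑ s : Fin W, (2 - 2 * (ω ^ s.1).re) := by
  have hn : ‖ω‖ = 1 := Complex.norm_eq_one_of_pow_eq_one h1 hM.ne'
  have h3 : ∑ s ∈ range W, ω ^ s = ∑ s ∈ range (W % M), ω ^ s := by
    rw [geom_sum_eq h2, geom_sum_eq h2, pow_eq_pow_mod W h1]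
  have h4 : (∑ s ∈ range W, ω ^ s).re ≤ M := by
    rw [h3]
    refine (Complex.re_le_norm _).trans ((norm_sum_le _ _).trans ?_)
    simp only [norm_pow, hn, one_pow, sum_const, card_range, nsmul_eq_mul, mul_one, Nat.cast_le]
    exact (Nat.mod_lt _ hM).le
  rw [Fin.sum_univ_eq_sum_range (fun s => 2 - 2 * (ω ^ s).re), sum_sub_distrib, ← mul_sum,
    ← Complex.re_sum]
  have : (2 * M : ℝ) ≤ W := by exact_mod_cast hW
  simp only [sum_const, card_range, nsmul_eq_mul]
  linarith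

end Crest.Agent.Edit
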