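import Crest.Agent.Edit.Block
import Crest.Agent.Edit.Spec

/-!
The recursive family of strings indexed by finite abelian groups.
-/

set_option autoImplicit false
set_option linter.unusedVariables false

namespace Crest.Agent.Edit

open Finset

structure Obj (k N P m j Q : ℕ) where
  G : Type
  [acg : AddCommGroup G]
  [fin : Fintype G]
  v : G
  str : G → ℕ → ℕ
  ι : Type
  [fι : Fintype ι]
  mv : ι → G
  w : ι → ℝ
  cost : ι → ℕ
  hv : Q • v = 0
  hstr : ∀ g a, str g a < (k * P) ^ j * Q
  hw : ∀ i, 0 ≤ w i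
  hclose : ∀ g i, Close (cost i) (word ((N * k) ^ j) (str g)) (word ((N * k) ^ j) (str (g + mv i)))
  hcost : ∑ i, w i * cost i ≤ (j + 1) * ((N * k) ^ j : ℕ)
  hspec : ∀ χ : AddChar G ℂ, χ v ≠ 1 → (m : ℝ) ^ j ≤ ∑ i, w i * (2 - 2 * (χ (mv i)).re)
  hfar : ∀ g (z : ℤ), ¬ (Q : ℤ) ∣ z → ∀ M, Mt ((N * k) ^ j) (str g) (str (g + z • v)) M →
    (N * k) ^ j + 4 ^ j * M.card ≤ 4 ^ j * (N * k) ^ j

attribute [instance] Obj.acg Obj.fin Obj.fι

theorem re_nonneg {G : Type} [AddCommGroup G] [Fintype G] (χ : AddChar G ℂ) (a : G) :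
    0 ≤ 2 - 2 * (χ a).re := by
  have := (Complex.re_le_norm (χ a)).trans (χ.norm_apply a).le
  linarith

theorem char_sum {G ι : Type} [AddCommGroup G] (χ : AddChar G ℂ) (s : Finset ι) (f : ι → G) :
    χ (∑ i ∈ s, f i) = ∏ i ∈ s, χ (f i) := by
  classical
  induction s using Finset.induction_on with
  | empty => simp
  | insert a s ha ih => rw [sum_insert ha, prod_insert ha, AddChar.map_add_eq_mul, ih]

theorem base_obj (k N P m Q W : ℕ) (hQ : 0 < Q) (hW : 2 * Q ≤ W) : Nonempty (Obj k N P m 0 Q) := by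
  have : NeZero Q := ⟨hQ.ne'⟩
  have hW0 : (0 : ℝ) < W := by exact_mod_cast (by omega : 0 < W)
  refine ⟨{
    G := ZMod Q, v := 1, str := fun g _ => g.val, ι := Fin W, mv := fun s => s.1 • 1,
    w := fun _ => 1 / W, cost := fun _ => 1, hv := by simp, hstr := fun g _ => by simpa using g.val_lt
    hw := fun _ => by positivity
    hclose := fun g i => close_short (by simp [word_length]) (by simp [word_length])
    hcost := by simp [hW0.ne']
    hspec := fun χ h => ?_
    hfar := fun g z hz M hM => ?_ }⟩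
  · have h1 : χ 1 ^ Q = 1 := by rw [← AddChar.map_nsmul_eq_pow]; simp
    have := avg_root hQ h1 h hW
    simp only [AddChar.map_nsmul_eq_pow]
    rw [← mul_sum, pow_zero, one_div, ← div_eq_inv_mul, le_div_iff₀ hW0]
    linarith
  · have : M = ∅ := eq_empty_of_forall_notMem fun q hq => hz (by
      have h := ZMod.val_injective Q (hM.1 q hq).2.2
      rw [left_eq_add, zsmul_one] at h
      exact (ZMod.intCast_zmod_eq_zero_iff_dvd z Q).1 h)
    simp [this]

theorem word_congr {n : ℕ} {x y : ℕ → ℕ} (h : ∀ r < n, x r = y r) : word n x = word n y :=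
  List.map_congr_left fun r hr => h r (List.mem_range.1 hr)

theorem sum_mod (N k c e : ℕ) (hc : c < k) :
    ∑ β ∈ range (N * k), (if β % k = c then e else 0) = N * e := by
  induction N with
  | zero => simp
  | succ N ih =>
    rw [Nat.succ_mul, sum_range_add, ih, Nat.succ_mul]
    congr 1
    rw [sum_congr rfl (g := fun i => if i = c then e else 0) fun i hi => by
      rw [Nat.mul_add_mod', Nat.mod_eq_of_lt (mem_range.1 hi)]]
    simp [hc]

theorem step_obj {k N P m j Q W K r : ℕ} (p : ℕ → ℕ) (O : (c : Fin k) → Obj k N P m j (p c * Q))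
    (hk : 2 ≤ k) (hN : 0 < N) (hQ : 0 < Q) (hK : 1 ≤ K) (hr : 4 * r ≤ k) (hNK : N ≤ K ^ (r + 1))
    (hp : ∀ c < k, K ≤ p c ∧ p c ≤ P ∧ (p c).Coprime Q)
    (hpp : ∀ c < k, ∀ c' < k, c ≠ c' → (p c).Coprime (p c'))
    (hW : 2 * (P ^ m * Q) ≤ W) (hWN : m ^ (j + 1) * W ≤ N) : Nonempty (Obj k N P m (j + 1) Q) := by
  have hk0 : 0 < k := by omega
  have hP : 1 ≤ P := hK.trans ((hp 0 hk0).1.trans (hp 0 hk0).2.1)
  have hW0 : (0 : ℝ) < W := by
    have : 0 < P ^ m * Q := by positivity
    exact_mod_cast (by omega : 0 < W)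
  set n := (N * k) ^ j with hn
  have hn0 : 0 < n := by positivity
  have hn1 : (N * k) ^ (j + 1) = N * k * n := pow_succ' _ _
  let fi : ℕ → Fin k := fun β => ⟨β % k, Nat.mod_lt _ hk0⟩
  let e : (c : Fin k) → (O c).G := fun c => (O c).v
  let R : ℕ := ∏ c : Fin k, p c
  let blk : ((c : Fin k) → (O c).G) → Fin k → ℕ → ℕ → ℕ := fun g c s => (O c).str (g c + s • e c)
  let X : ((c : Fin k) → (O c).G) → ℕ → ℕ → ℕ := fun g β => blk g (fi β) (β / k)
  have hword : ∀ g, word (N * k * n) (fun a => X g (a / n) (a % n) * k + a / n % k) =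
      (List.range (N * k)).flatMap fun β => (word n (X g β)).map fun a => a * k + β % k := by
    intro g
    rw [word_mul]
    congr 1
    funext β
    rw [word_congr (y := fun r => X g β r * k + β % k)]
    · simp [word]
    · intro r hr
      have h1 : (β * n + r) / n = β := by
        rw [add_comm, Nat.add_mul_div_right _ _ hn0, Nat.div_eq_of_lt hr, zero_add]
      rw [h1, Nat.mul_add_mod', Nat.mod_eq_of_lt hr]
  refine ⟨{
    G := (c : Fin k) → (O c).G, v := R • e,
    str := fun g a => X g (a / n) (a % n) * k + a / n % k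
    ι := (Σ c, (O c).ι) ⊕ Fin W
    mv := Sum.elim (fun z => Pi.single z.1 ((O z.1).mv z.2)) fun s => s.1 • e
    w := Sum.elim (fun z => (O z.1).w z.2) fun _ => (m : ℝ) ^ (j + 1) / W
    cost := Sum.elim (fun z => N * (O z.1).cost z.2) fun s => s.1 * k * n
    hv := ?_, hstr := ?_, hw := ?_, hclose := ?_, hcost := ?_, hspec := ?_, hfar := ?_ }⟩
  · funext c
    obtain ⟨a, ha⟩ : p c ∣ R := dvd_prod_of_mem (fun c : Fin k => p c) (mem_univ c)
    simp only [Pi.smul_apply, smul_smul, Pi.zero_apply, ha, e]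
    rw [show Q * (p c * a) = a * (p c * Q) by ring, mul_smul, (O c).hv, smul_zero]
  · intro g a
    have h1 := (O (fi (a / n))).hstr (g _ + (a / n / k) • e _) (a % n)
    have h2 := Nat.mod_lt (a / n) hk0
    have h3 : (k * P) ^ j * (p (fi (a / n)) * Q) ≤ (k * P) ^ j * (P * Q) := by
      gcongr; exact (hp _ (fi _).2).2.1
    calc _ < (X g (a / n) (a % n) + 1) * k := by rw [add_mul]; omega
      _ ≤ (k * P) ^ j * (P * Q) * k := by gcongr; exact h1.trans_le h3
      _ = _ := by ring
  · rintro (z | s)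
    · exact (O z.1).hw z.2
    · simp only [Sum.elim_inr]; positivity
  · rintro g (⟨c, i⟩ | s)
    · rw [hn1, hword, hword]
      simp only [Sum.elim_inl]
      rw [← sum_mod N k c _ c.2]
      refine close_flatMap _ _ _ _ fun β _ => Close.map ?_ _
      have : ∀ (c' : Fin k) (s : ℕ), Close (if c'.1 = c then (O c).cost i else 0)
          (word n (blk g c' s)) (word n (blk (g + Pi.single c ((O c).mv i)) c' s)) := by
        intro c' s
        by_cases h : c' = c
        · subst h
          simp only [if_true, blk, Pi.add_apply, Pi.single_eq_same, add_right_comm (g c')]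
          exact (O c').hclose _ _
        · simp only [blk, Pi.add_apply, Pi.single_eq_of_ne h, add_zero]
          exact (Close.rfl _).mono (Nat.zero_le _)
      exact this (fi β) (β / k)
    · simp only [Sum.elim_inr]
      convert close_shift ((N * k) ^ (j + 1)) (s.1 * k * n) _ using 3 with a
      rw [Nat.add_mul_div_right _ _ hn0, Nat.add_mul_mod_self_right, Nat.add_mul_mod_self_right]
      have h3 : fi (a / n + s.1 * k) = fi (a / n) := Fin.ext (Nat.add_mul_mod_self_right _ _ _)
      have h4 : X g (a / n + s.1 * k) = blk g (fi (a / n)) (a / n / k + s.1) := by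
        simp only [X]
        rw [h3, Nat.add_mul_div_right _ _ hk0]
      rw [h4]
      simp only [X, blk, Pi.add_apply, Pi.smul_apply, add_smul]
      congr 3
      abel
  · rw [Fintype.sum_sum_type, Fintype.sum_sigma, hn1]
    simp only [Sum.elim_inl, Sum.elim_inr]
    have h1 : ∑ c : Fin k, ∑ i, (O c).w i * (N * (O c).cost i : ℕ) ≤
        ∑ c : Fin k, (N : ℝ) * ((j + 1) * n) := by
      refine sum_le_sum fun c _ => le_trans (le_of_eq ?_)
        (mul_le_mul_of_nonneg_left (O c).hcost (Nat.cast_nonneg N))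
      rw [mul_sum]
      exact sum_congr rfl fun i _ => by push_cast; ring
    have h2 : ∑ s : Fin W, (m : ℝ) ^ (j + 1) / W * (s.1 * k * n : ℕ) ≤
        ∑ s : Fin W, (m : ℝ) ^ (j + 1) / W * (W * k * n : ℕ) := by
      gcongr with s
      exact s.2.le
    have h3 : (m : ℝ) ^ (j + 1) * W ≤ N := by exact_mod_cast hWN
    refine (add_le_add h1 h2).trans ?_
    simp only [sum_const, card_univ, Fintype.card_fin, nsmul_eq_mul]
    push_cast
    have : (W : ℝ) * ((m : ℝ) ^ (j + 1) / W * (W * k * n)) = (m : ℝ) ^ (j + 1) * W * (k * n) := by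
      field_simp
    rw [this]
    have h4 : (m : ℝ) ^ (j + 1) * W * (k * n) ≤ N * (k * n) := by gcongr
    nlinarith
  · intro χ hχ
    classical
    rw [Fintype.sum_sum_type, Fintype.sum_sigma]
    simp only [Sum.elim_inl, Sum.elim_inr]
    let χc : (c : Fin k) → AddChar (O c).G ℂ := fun c =>
      χ.compAddMonoidHom (AddMonoidHom.single (fun c => (O c).G) c)
    let S := univ.filter fun c => χc c (e c) ≠ 1
    have hA : ∀ c : Fin k, 0 ≤ ∑ i, (O c).w i * (2 - 2 * (χ (Pi.single c ((O c).mv i))).re) :=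
      fun c => sum_nonneg fun i _ => mul_nonneg ((O c).hw i) (re_nonneg _ _)
    by_cases hS : m ≤ S.card
    · refine le_add_of_le_of_nonneg ?_
        (sum_nonneg fun s _ => mul_nonneg (by positivity) (re_nonneg _ _))
      refine le_trans ?_ (sum_le_sum_of_subset_of_nonneg (subset_univ S) fun c _ _ => hA c)
      refine le_trans ?_ (card_nsmul_le_sum S _ ((m : ℝ) ^ j) fun c hc =>
        (O c).hspec (χc c) (mem_filter.1 hc).2)
      rw [nsmul_eq_mul, pow_succ']
      gcongr
    · refine le_add_of_nonneg_of_le (sum_nonneg fun c _ => hA c) ?_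
      have h1 : χ e = ∏ c ∈ S, χc c (e c) := by
        rw [← univ_sum_single e, char_sum, prod_filter]
        refine prod_congr rfl fun c _ => ?_
        split_ifs with h
        · simp [χc]
        · simpa [χc] using h
      have h2 : χ e ^ ((∏ c ∈ S, p c) * Q) = 1 := by
        rw [h1, ← prod_pow]
        refine prod_eq_one fun c hc => ?_
        obtain ⟨a, ha⟩ : p c ∣ ∏ c ∈ S, p c := dvd_prod_of_mem (fun c : Fin k => p c) hc
        rw [ha, ← AddChar.map_nsmul_eq_pow, show p c * a * Q = a * (p c * Q) by ring, mul_smul,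
          (O c).hv, smul_zero, AddChar.map_zero_eq_one]
      have h3 : χ e ≠ 1 := fun h => hχ (by rw [AddChar.map_nsmul_eq_pow, h, one_pow])
      have h4 : ∏ c ∈ S, p c ≤ P ^ m :=
        (prod_le_pow_card _ _ _ fun c _ => (hp _ c.2).2.1).trans
          (Nat.pow_le_pow_right hP (by omega))
      have h5 : 0 < ∏ c ∈ S, p c := prod_pos fun c _ => hK.trans (hp _ c.2).1
      have := avg_root (W := W) (Nat.mul_pos h5 hQ) h2 h3 (le_trans (by gcongr) hW)
      simp only [AddChar.map_nsmul_eq_pow]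
      rw [← mul_sum, div_mul_eq_mul_div, le_div_iff₀ hW0]
      gcongr
  · intro g z hz M hM
    rw [hn1] at hM ⊢
    rw [pow_succ' 4 j]
    refine block_lemma hn0 hk (Nat.one_le_pow _ _ (by norm_num)) hr (X g) (X (g + z • R • e))
      (fun β β' => ((p (β % k) * Q : ℕ) : ℤ) ∣ z * R + (β' / k : ℕ) - (β / k : ℕ)) ?_ ?_ M hM
    · intro β β' h1 h2 M hM
      have h3 : fi β' = fi β := Fin.ext h1.symm
      refine (O (fi β)).hfar (g _ + (β / k) • e _) _ h2 M ?_
      have h4 : X (g + z • R • e) β' = blk (g + z • R • e) (fi β) (β' / k) := by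
        simp only [X]
        rw [h3]
      rw [h4] at hM
      simp only [X, blk] at hM
      convert hM using 2
      simp only [Pi.add_apply, Pi.smul_apply, add_smul, sub_smul, mul_smul, natCast_zsmul, e]
      abel
    · intro s s' hs hs' C hC
      have hC' : ∀ c ∈ C, ((p c * Q : ℕ) : ℤ) ∣ z * R + s' - s := by
        intro c hc
        have h1 := (hC c hc).2
        have h2 : ∀ s, (s * k + c) / k = s := fun s => by
          rw [add_comm, Nat.add_mul_div_right _ _ hk0, Nat.div_eq_of_lt (hC c hc).1, zero_add]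
        simp only [h2, Nat.mul_add_mod', Nat.mod_eq_of_lt (hC c hc).1] at h1
        exact h1
      by_contra hlt
      obtain ⟨c0, hc0⟩ : C.Nonempty := card_pos.1 (by omega)
      have hss : (s' : ℤ) - s ≠ 0 := by
        intro h
        have h1 := hC' c0 hc0
        rw [add_sub_assoc, h, add_zero] at h1
        have h2 : (Q : ℤ) ∣ z * R := (Dvd.intro_left (p c0 : ℤ) (by push_cast; ring)).trans h1
        refine hz (IsCoprime.dvd_of_dvd_mul_right ?_ h2)
        exact Nat.isCoprime_iff_coprime.2 (Nat.Coprime.prod_right fun c _ => (hp _ c.2).2.2.symm)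
      have h1 : ∏ c ∈ C, p c ∣ ((s' : ℤ) - s).natAbs := by
        refine prod_dvd_of_isRelPrime (fun c hc c' hc' h => Nat.coprime_iff_isRelPrime.1
          (hpp c (hC c hc).1 c' (hC c' hc').1 h)) fun c hc => Int.natCast_dvd.1 ?_
        have h2 : (p c : ℤ) ∣ z * R + s' - s := (Dvd.intro (Q : ℤ) (by push_cast; ring)).trans (hC' c hc)
        have h3 : p c ∣ R := dvd_prod_of_mem (fun c : Fin k => p c) (mem_univ ⟨c, (hC c hc).1⟩)
        rw [add_sub_assoc] at h2
        exact (dvd_add_right ((Int.natCast_dvd_natCast.2 h3).mul_left z)).1 h2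
      have h2 := Nat.le_of_dvd (Int.natAbs_pos.2 hss) h1
      have h3 : K ^ (r + 1) ≤ ∏ c ∈ C, p c :=
        (Nat.pow_le_pow_right hK (by omega)).trans
          (pow_card_le_prod _ _ _ fun c hc => (hp c (hC c hc).1).1)
      omega

theorem exists_obj {k N P m W K r T : ℕ} (q : ℕ → ℕ)
    (hk : 2 ≤ k) (hN : 0 < N) (hm : 1 ≤ m) (hK : 1 ≤ K) (hr : 4 * r ≤ k) (hNK : N ≤ K ^ (r + 1))
    (hq : ∀ i < T, K ≤ q i ∧ q i ≤ P) (hqq : ∀ i < T, ∀ i' < T, i ≠ i' → (q i).Coprime (q i'))
    (j : ℕ) : ∀ Q, 0 < Q → j * k ≤ T → (∀ i < j * k, (q i).Coprime Q) →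
      2 * (P ^ (m + j) * Q) ≤ W → 1 ≤ P → m ^ j * W ≤ N → Nonempty (Obj k N P m j Q) := by
  induction j with
  | zero =>
    intro Q hQ _ _ hW hP _
    refine base_obj k N P m Q W hQ (le_trans ?_ hW)
    gcongr
    exact Nat.le_mul_of_pos_left _ (by positivity)
  | succ j ih =>
    intro Q hQ hT hc hW hP hWN
    rw [Nat.succ_mul] at hT hc
    have hO : ∀ c : Fin k, Nonempty (Obj k N P m j (q (j * k + c) * Q)) := by
      intro c
      have h1 := hq (j * k + c) (by omega)
      refine ih _ (Nat.mul_pos (by omega) hQ) (by omega) (fun i hi => ?_) (le_trans ?_ hW) hP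
        (le_trans ?_ hWN)
      · exact Nat.Coprime.mul_right (hqq _ (by omega) _ (by omega) (by omega)) (hc i (by omega))
      · rw [← add_assoc, pow_succ, mul_assoc _ P]
        gcongr
        exact h1.2
      · gcongr
        omega
    refine step_obj (W := W) (fun c => q (j * k + c)) (fun c => (hO c).some) hk hN hQ hK hr hNK
      (fun c hc' => ⟨(hq _ (by omega)).1, (hq _ (by omega)).2, hc _ (by omega)⟩)
      (fun c h c' h' hne => hqq _ (by omega) _ (by omega) (by omega)) (le_trans ?_ hW) hWN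
    gcongr
    omega

end Crest.Agent.Edit
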